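import Mathlib

/-!
P363: planar crossing. Two paths in a half plane with alternating endpoints on its edge meet; as a
consequence, two disjoint sets cannot connect alternating unbounded graphs.
-/

noncomputable section

namespace Vale.Agent.P363.Top

open Set Filter

/-- A continuous angle whose sine (from `a`) stays nonnegative stays in its half period. -/
theorem angle_mem_Icc {φ : ℝ → ℝ} {a : ℝ} (hφ : Continuous φ)
    (hs : ∀ t, 0 ≤ Real.sin (φ t - a)) (t₀ : ℝ) (h₀ : φ t₀ ∈ Icc a (a + Real.pi)) (t : ℝ) :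
    φ t ∈ Icc a (a + Real.pi) := by
  constructor <;> by_contra! h
  · obtain ⟨u, hu⟩ : max (φ t) (a - Real.pi / 2) ∈ range φ :=
      intermediate_value_univ t t₀ hφ
        ⟨le_max_left _ _, max_le (h.le.trans h₀.1) (by linarith [h₀.1, Real.pi_pos])⟩
    have := hs u
    rw [hu] at this
    exact this.not_gt (Real.sin_neg_of_neg_of_neg_pi_lt
      (sub_neg.2 (max_lt h (by linarith [Real.pi_pos])))
      (by linarith [le_max_right (φ t) (a - Real.pi / 2), Real.pi_pos]))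
  · obtain ⟨u, hu⟩ : min (φ t) (a + 3 * Real.pi / 2) ∈ range φ :=
      intermediate_value_univ t₀ t hφ
        ⟨le_min (h₀.2.trans h.le) (by linarith [h₀.2, Real.pi_pos]), min_le_left _ _⟩
    have := hs u
    rw [hu] at this
    have hlo : a + Real.pi < min (φ t) (a + 3 * Real.pi / 2) :=
      lt_min h (by linarith [Real.pi_pos])
    have hneg : Real.sin (min (φ t) (a + 3 * Real.pi / 2) - a - 2 * Real.pi) < 0 :=
      Real.sin_neg_of_neg_of_neg_pi_lt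
        (by linarith [min_le_right (φ t) (a + 3 * Real.pi / 2), Real.pi_pos]) (by linarith)
    rw [Real.sin_sub_two_pi] at hneg
    exact this.not_gt hneg

/-- Two curves in `fst ≤ R` with endpoints alternating on the edge `fst = R` meet. -/
theorem exists_eq_of_alternating {A B : C(ℝ, ℝ × ℝ)} {R : ℝ} {a b c d : ℝ}
    (hA : ∀ s, (A s).1 ≤ R) (hB : ∀ t, (B t).1 ≤ R)
    (hA0 : A 0 = (R, a)) (hA1 : A 1 = (R, c)) (hB0 : B 0 = (R, b)) (hB1 : B 1 = (R, d))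
    (hab : a < b) (hbc : b < c) (hcd : c < d) : ∃ s t, A s = B t := by
  by_contra! hne
  let z : C(ℝ × ℝ, ℂ) :=
    ⟨fun p => ⟨(B p.2).2 - (A p.1).2, (A p.1).1 - (B p.2).1⟩, by
      have h : (fun p : ℝ × ℝ => (⟨(B p.2).2 - (A p.1).2, (A p.1).1 - (B p.2).1⟩ : ℂ)) =
          fun p => (((B p.2).2 - (A p.1).2 : ℝ) : ℂ) +
            (((A p.1).1 - (B p.2).1 : ℝ) : ℂ) * Complex.I := by
        funext p; apply Complex.ext <;> simp
      rw [h]; fun_prop⟩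
  have hz : ∀ p, z p ≠ 0 := fun p h => hne p.1 p.2 <| Prod.ext
    (sub_eq_zero.1 (congrArg Complex.im h)) (sub_eq_zero.1 (congrArg Complex.re h)).symm
  let g : C(ℝ × ℝ, Circle) :=
    ⟨fun p => ⟨(‖z p‖⁻¹ : ℝ) • z p, mem_sphere_zero_iff_norm.2 (by
        rw [norm_smul, Real.norm_of_nonneg (by positivity),
          inv_mul_cancel₀ (norm_ne_zero_iff.2 (hz p))])⟩,
      Continuous.subtype_mk ((z.continuous.norm.inv₀ fun p => norm_ne_zero_iff.2 (hz p)).smul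
        z.continuous) _⟩
  have h00 : Circle.exp 0 = g (0, 0) := by
    refine Subtype.ext ?_
    show (Circle.exp 0 : ℂ) = (‖z (0, 0)‖⁻¹ : ℝ) • z (0, 0)
    have e : z (0, 0) = ((b - a : ℝ) : ℂ) := by
      apply Complex.ext <;> simp [z, hA0, hB0]
    rw [Circle.exp_zero, e, Complex.norm_real, Real.norm_of_nonneg (sub_nonneg.2 hab.le),
      Complex.real_smul, ← Complex.ofReal_mul, inv_mul_cancel₀ (sub_pos.2 hab).ne']
    rfl
  obtain ⟨L, ⟨hL0, hL⟩, -⟩ := Circle.isCoveringMap_exp.existsUnique_continuousMap_lifts g (0, 0) 0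
    h00
  have hpos : ∀ p, 0 < ‖z p‖ := fun p => norm_pos_iff.2 (hz p)
  have key : ∀ p, Real.cos (L p) = ‖z p‖⁻¹ * (z p).re ∧ Real.sin (L p) = ‖z p‖⁻¹ * (z p).im := by
    intro p
    have h := congrArg Subtype.val (congrFun hL p)
    simp only [Function.comp_apply, Circle.coe_exp] at h
    have h' : Complex.exp (L p * Complex.I) = (‖z p‖⁻¹ : ℝ) • z p := h
    exact ⟨by simpa [Complex.exp_ofReal_mul_I_re] using congrArg Complex.re h',
      by simpa [Complex.exp_ofReal_mul_I_im] using congrArg Complex.im h'⟩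
  have sinnonneg : ∀ p, 0 ≤ (z p).im → 0 ≤ Real.sin (L p) := fun p h => by
    rw [(key p).2]
    exact mul_nonneg (inv_nonneg.2 (hpos p).le) h
  have sinnonpos : ∀ p, (z p).im ≤ 0 → 0 ≤ Real.sin (L p - Real.pi) := fun p h => by
    rw [Real.sin_sub_pi, (key p).2, neg_nonneg]
    exact mul_nonpos_of_nonneg_of_nonpos (inv_nonneg.2 (hpos p).le) h
  -- edge `s = 0`
  have e0 : ∀ t, L (0, t) ∈ Icc (0 : ℝ) (0 + Real.pi) := fun t =>
    angle_mem_Icc (φ := fun t => L (0, t)) (by fun_prop)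
      (fun t => by rw [sub_zero]; exact sinnonneg _ (by simp [z, hA0, hB t])) 0
      (by rw [hL0]; exact ⟨le_rfl, by linarith [Real.pi_pos]⟩) t
  -- edge `t = 0`
  have f0 : ∀ s, L (s, 0) ∈ Icc (-Real.pi) (-Real.pi + Real.pi) := fun s =>
    angle_mem_Icc (φ := fun s => L (s, 0)) (by fun_prop)
      (fun s => by
        rw [sub_neg_eq_add, Real.sin_add_pi, neg_nonneg]
        have h := sinnonpos (s, 0) (by simp [z, hB0, hA s])
        rwa [Real.sin_sub_pi, neg_nonneg] at h) 0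
      (by rw [hL0]; exact ⟨by linarith [Real.pi_pos], by linarith⟩) s
  have h10 : L (1, 0) = -Real.pi := by
    have hm := f0 1
    have hs : Real.sin (L (1, 0)) = 0 := by rw [(key _).2]; simp [z, hA1, hB0]
    have hc : Real.cos (L (1, 0)) < 0 := by
      rw [(key _).1]
      exact mul_neg_of_pos_of_neg (inv_pos.2 (hpos _)) (by simp [z, hA1, hB0, hbc])
    refine le_antisymm (le_of_not_gt fun hlt => ?_) hm.1
    rcases lt_or_eq_of_le (show L (1, 0) ≤ 0 by linarith [hm.2]) with h | h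
    · exact (Real.sin_neg_of_neg_of_neg_pi_lt h hlt).ne hs
    · rw [h, Real.cos_zero] at hc
      linarith
  -- edge `s = 1`
  have e1 : L (1, 1) ∈ Icc (-(2 * Real.pi)) (-(2 * Real.pi) + Real.pi) :=
    angle_mem_Icc (φ := fun t => L (1, t)) (by fun_prop)
      (fun t => by
        rw [sub_neg_eq_add, Real.sin_add_two_pi]
        exact sinnonneg _ (by simp [z, hA1, hB t])) 0
      (by rw [h10]; exact ⟨by linarith [Real.pi_pos], by linarith⟩) 1
  have h01 : L (0, 1) = 0 := by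
    have hm := e0 1
    have hs : Real.sin (L (0, 1)) = 0 := by rw [(key _).2]; simp [z, hA0, hB1]
    have hc : 0 < Real.cos (L (0, 1)) := by
      rw [(key _).1]
      exact mul_pos (inv_pos.2 (hpos _)) (by simp [z, hA0, hB1]; linarith)
    refine le_antisymm (le_of_not_gt fun hlt => ?_) hm.1
    rcases lt_or_eq_of_le (show L (0, 1) ≤ Real.pi by linarith [hm.2]) with h | h
    · exact (Real.sin_pos_of_pos_of_lt_pi hlt h).ne' hs
    · rw [h, Real.cos_pi] at hc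
      linarith
  -- edge `t = 1`
  have f1 : L (1, 1) ∈ Icc (-Real.pi) (-Real.pi + Real.pi) :=
    angle_mem_Icc (φ := fun s => L (s, 1)) (by fun_prop)
      (fun s => by
        rw [sub_neg_eq_add, Real.sin_add_pi, neg_nonneg]
        have h := sinnonpos (s, 1) (by simp [z, hB1, hA s])
        rwa [Real.sin_sub_pi, neg_nonneg] at h) 0
      (by rw [h01]; exact ⟨by linarith [Real.pi_pos], by linarith⟩) 1
  have hc : 0 < Real.cos (L (1, 1)) := by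
    rw [(key _).1]
    exact mul_pos (inv_pos.2 (hpos _)) (by simp [z, hA1, hB1, hcd])
  rw [show L (1, 1) = -Real.pi from le_antisymm (by linarith [e1.2]) f1.1, Real.cos_neg,
    Real.cos_pi] at hc
  linarith

/-- A curve closed up by two graphs over `[x₀, R]`. -/
theorem exists_curve_of_joinedIn {S : Set (ℝ × ℝ)} {x₀ : ℝ} {h₀ h₁ : ℝ → ℝ}
    (hc₀ : ContinuousOn h₀ (Ici x₀)) (hc₁ : ContinuousOn h₁ (Ici x₀))
    (hm₀ : ∀ x ≥ x₀, (x, h₀ x) ∈ S) (hm₁ : ∀ x ≥ x₀, (x, h₁ x) ∈ S)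
    (hj : JoinedIn S (x₀, h₀ x₀) (x₀, h₁ x₀)) :
    ∃ R₀, ∀ R ≥ R₀, ∃ A : C(ℝ, ℝ × ℝ), (∀ s, A s ∈ S) ∧ (∀ s, (A s).1 ≤ R) ∧
      A 0 = (R, h₀ R) ∧ A 1 = (R, h₁ R) := by
  obtain ⟨γ, hγ⟩ := hj
  obtain ⟨M, hM⟩ := (isCompact_range γ.continuous).bddAbove_image continuous_fst.continuousOn
  refine ⟨max x₀ M, fun R hR => ?_⟩
  have hx : x₀ ≤ R := le_of_max_le_left hR
  have hM' : ∀ u, (γ u).1 ≤ R := fun u =>
    (hM ⟨γ u, mem_range_self u, rfl⟩).trans (le_of_max_le_right hR)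
  have ray : ∀ h : ℝ → ℝ, ContinuousOn h (Ici x₀) → (∀ x ≥ x₀, (x, h x) ∈ S) →
      ∃ P : Path (x₀, h x₀) (R, h R), ∀ u, P u ∈ S ∧ (P u).1 ≤ R := by
    intro h hc hm
    have hmem : ∀ u : unitInterval, x₀ + (u : ℝ) * (R - x₀) ∈ Icc x₀ R := fun u => by
      constructor <;>
        nlinarith [u.2.1, u.2.2, mul_nonneg u.2.1 (sub_nonneg.2 hx),
          mul_le_mul_of_nonneg_right u.2.2 (sub_nonneg.2 hx)]
    have hcont : Continuous fun u : unitInterval =>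
        (x₀ + (u : ℝ) * (R - x₀), h (x₀ + (u : ℝ) * (R - x₀))) :=
      Continuous.prodMk (by fun_prop) (hc.comp_continuous (by fun_prop) fun u => (hmem u).1)
    exact ⟨⟨⟨_, hcont⟩, by simp, by simp⟩, fun u => ⟨hm _ (hmem u).1, (hmem u).2⟩⟩
  obtain ⟨P₀, hP₀⟩ := ray h₀ hc₀ hm₀
  obtain ⟨P₁, hP₁⟩ := ray h₁ hc₁ hm₁
  set P := (P₀.symm.trans γ).trans P₁ with hP
  have hall : ∀ u, P u ∈ S ∧ (P u).1 ≤ R := by
    intro u
    have hu : P u ∈ range P := mem_range_self u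
    rw [hP, Path.trans_range, Path.trans_range, Path.symm_range] at hu
    rcases hu with (⟨v, hv⟩ | ⟨v, hv⟩) | ⟨v, hv⟩ <;> rw [hP, ← hv]
    · exact hP₀ v
    · exact ⟨hγ v, hM' v⟩
    · exact hP₁ v
  refine ⟨⟨P.extend, P.continuous_extend⟩, fun s => ?_, fun s => ?_, P.extend_zero, P.extend_one⟩
  · exact (hall (projIcc 0 1 zero_le_one s)).1
  · exact (hall (projIcc 0 1 zero_le_one s)).2

/-- Two disjoint planar sets cannot connect four ordered unbounded graphs alternately. -/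
theorem not_joinedIn_alternating {S T : Set (ℝ × ℝ)} (hST : Disjoint S T) {x₀ : ℝ}
    {h : Fin 4 → ℝ → ℝ} (hc : ∀ i, ContinuousOn (h i) (Ici x₀))
    (hlt : ∀ x ≥ x₀, h 0 x < h 1 x ∧ h 1 x < h 2 x ∧ h 2 x < h 3 x)
    (h0 : ∀ x ≥ x₀, (x, h 0 x) ∈ S) (h1 : ∀ x ≥ x₀, (x, h 1 x) ∈ T)
    (h2 : ∀ x ≥ x₀, (x, h 2 x) ∈ S) (h3 : ∀ x ≥ x₀, (x, h 3 x) ∈ T) :
    ¬ (JoinedIn S (x₀, h 0 x₀) (x₀, h 2 x₀) ∧ JoinedIn T (x₀, h 1 x₀) (x₀, h 3 x₀)) := by
  rintro ⟨hS, hT⟩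
  obtain ⟨R₀, hA⟩ := exists_curve_of_joinedIn (hc 0) (hc 2) h0 h2 hS
  obtain ⟨R₁, hB⟩ := exists_curve_of_joinedIn (hc 1) (hc 3) h1 h3 hT
  set R := max x₀ (max R₀ R₁)
  obtain ⟨A, hAS, hAR, hA0, hA1⟩ := hA R (le_max_of_le_right (le_max_left _ _))
  obtain ⟨B, hBT, hBR, hB0, hB1⟩ := hB R (le_max_of_le_right (le_max_right _ _))
  obtain ⟨ha, hb, hd⟩ := hlt R (le_max_left _ _)
  obtain ⟨s, t, e⟩ := exists_eq_of_alternating hAR hBR hA0 hA1 hB0 hB1 ha hb hd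
  exact Set.disjoint_left.1 hST (hAS s) (e ▸ hBT t)

/-- A function factoring through the plane, of alternating sign on four ordered unbounded graphs,
has two of them in different components of its positive or of its negative set. -/
theorem not_joinedIn_sign {X : Type*} [TopologicalSpace X] {Φ : X → ℝ × ℝ} (hΦ : Continuous Φ)
    {f : X → ℝ} {D : Set X} (hf : ∀ x ∈ D, ∀ y ∈ D, Φ x = Φ y → f x = f y) {x₀ : ℝ}
    {h : Fin 4 → ℝ → ℝ} {γ : Fin 4 → ℝ → X} (hc : ∀ i, ContinuousOn (h i) (Ici x₀))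
    (hlt : ∀ x ≥ x₀, h 0 x < h 1 x ∧ h 1 x < h 2 x ∧ h 2 x < h 3 x)
    (hγ : ∀ i, ∀ x ≥ x₀, γ i x ∈ D ∧ Φ (γ i x) = (x, h i x))
    (hsgn : ∀ x ≥ x₀, 0 < f (γ 0 x) ∧ f (γ 1 x) < 0 ∧ 0 < f (γ 2 x) ∧ f (γ 3 x) < 0) :
    ¬ (JoinedIn (D ∩ {x | 0 < f x}) (γ 0 x₀) (γ 2 x₀) ∧
      JoinedIn (D ∩ {x | f x < 0}) (γ 1 x₀) (γ 3 x₀)) := by
  rintro ⟨hS, hT⟩
  have hdis : Disjoint (Φ '' (D ∩ {x | 0 < f x})) (Φ '' (D ∩ {x | f x < 0})) := by
    refine Set.disjoint_left.2 ?_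
    rintro _ ⟨x, ⟨hxD, hx⟩, rfl⟩ ⟨y, ⟨hyD, hy⟩, e⟩
    have := hf y hyD x hxD e
    simp only [mem_ofPred_eq] at hx hy
    linarith
  have im : ∀ {s : Set X} (i j : Fin 4), JoinedIn s (γ i x₀) (γ j x₀) →
      JoinedIn (Φ '' s) (x₀, h i x₀) (x₀, h j x₀) := fun i j hj => by
    obtain ⟨P, hP⟩ := hj
    have : JoinedIn (Φ '' _) (Φ (γ i x₀)) (Φ (γ j x₀)) :=
      ⟨P.map hΦ, fun t => ⟨P t, hP t, rfl⟩⟩
    rwa [(hγ i x₀ le_rfl).2, (hγ j x₀ le_rfl).2] at this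
  exact not_joinedIn_alternating hdis hc hlt
    (fun x hx => ⟨γ 0 x, ⟨(hγ 0 x hx).1, (hsgn x hx).1⟩, (hγ 0 x hx).2⟩)
    (fun x hx => ⟨γ 1 x, ⟨(hγ 1 x hx).1, (hsgn x hx).2.1⟩, (hγ 1 x hx).2⟩)
    (fun x hx => ⟨γ 2 x, ⟨(hγ 2 x hx).1, (hsgn x hx).2.2.1⟩, (hγ 2 x hx).2⟩)
    (fun x hx => ⟨γ 3 x, ⟨(hγ 3 x hx).1, (hsgn x hx).2.2.2⟩, (hγ 3 x hx).2⟩)
    ⟨im 0 2 hS, im 1 3 hT⟩

end Vale.Agent.P363.Top
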