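import Vale.Agent.P363.Top.Courant
import Vale.Agent.P363.Top.Crossing
import Vale.Agent.P363.KS.FormDefs
import Vale.Agent.P363.Tool.Hopf

/-!
P363: consequences of Courant's bound under the symmetries: an odd state has one sign on each half
space and is unique up to a factor; an axially symmetric even state cannot alternate in sign on four
ordered curves going to infinity.
-/

noncomputable section

namespace Vale.Agent.P363.Top

open MeasureTheory Filter Set Metric
open scoped BigOperators Topology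

variable {v φ φ₀ ψ : Space → ℝ} {F G : Fin 3 → Space → ℝ} {e₀ μ : ℝ} {P : Finset Space}
  {x y z : Space}

/-- Courant's bound at the second level. -/
theorem courantBound : CourantStmt := courant hopf positive

/-- A function cannot change sign along a path avoiding its zeros. -/
lemma joinedIn_pos (hc : Continuous φ) (h : JoinedIn {w | φ w ≠ 0} x y) (hx : 0 < φ x) :
    JoinedIn {w | 0 < φ w} x y := by
  obtain ⟨γ, hγ⟩ := h
  refine ⟨γ, fun t => ?_⟩
  by_contra hle
  obtain ⟨s, hs⟩ : (0 : ℝ) ∈ range (φ ∘ γ) :=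
    mem_range_of_exists_le_of_exists_ge (hc.comp γ.continuous) ⟨t, not_lt.1 hle⟩
      ⟨0, by simpa using hx.le⟩
  exact hγ s hs

lemma pos_of_joinedIn (hc : Continuous φ) (h : JoinedIn {w | φ w ≠ 0} x y) (hx : 0 < φ x) :
    0 < φ y :=
  (joinedIn_pos hc h hx).target_mem

/-- A zero surface separates the nodal domains of its two sides. -/
lemma not_joinedIn_of_separating {ℓ : Space → ℝ} (hℓ : Continuous ℓ)
    (h0 : ∀ w, ℓ w = 0 → φ w = 0) (hx : 0 < ℓ x) (hy : ℓ y < 0) :
    ¬ JoinedIn {w | φ w ≠ 0} x y := fun h => by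
  have h' : JoinedIn {w | ℓ w ≠ 0} x y := h.mono fun w hw e => hw (h0 w e)
  exact (pos_of_joinedIn hℓ h' hx).not_gt hy

lemma continuous_height : Continuous height := by
  unfold height; fun_prop

lemma height_mirror (x : Space) : height (mirror x) = -height x := by
  simp [height, mirror, unit3]; ring

lemma mirror_of_height_zero (h : height x = 0) : mirror x = x := by simp [mirror, h]

lemma mirror_mirror (x : Space) : mirror (mirror x) = x := by
  rw [mirror, height_mirror, mirror, mul_neg, neg_smul, sub_neg_eq_add, sub_add_cancel]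

lemma continuous_mirror : Continuous mirror := by
  have := continuous_height
  unfold mirror; fun_prop

/-- An odd state takes values of one sign above the plane. -/
theorem SecondState.odd_same_sign (h : SecondState P v φ₀ e₀ μ φ F)
    (hodd : ∀ x, φ (mirror x) = -φ x) (hx : 0 < height x) (hz : 0 < height z) : 0 ≤ φ x * φ z := by
  by_contra! hlt
  have hx0 : φ x ≠ 0 := fun e => by simp [e] at hlt
  have hz0 : φ z ≠ 0 := fun e => by simp [e] at hlt
  have hplane : ∀ w, height w = 0 → φ w = 0 := fun w hw => by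
    have := hodd w
    rw [mirror_of_height_zero hw] at this
    linarith
  have hm : height (mirror x) < 0 := by rw [height_mirror]; linarith
  have hxz : ¬ JoinedIn {w | φ w ≠ 0} x z := fun hj => by
    rcases lt_or_gt_of_ne hx0 with hn | hp
    · have e : {w : Space | -φ w ≠ 0} = {w | φ w ≠ 0} := by simp
      have := pos_of_joinedIn (φ := fun w => -φ w) h.cont.neg (e ▸ hj) (neg_pos.2 hn)
      nlinarith
    · nlinarith [pos_of_joinedIn h.cont hj hp]
  have h1 := not_joinedIn_of_separating continuous_height hplane hx hm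
  have h2 := not_joinedIn_of_separating continuous_height hplane hz hm
  refine courantBound P v φ₀ e₀ μ φ F h ![x, z, mirror x] (fun i => ?_) fun i j hij => ?_
  · fin_cases i <;> simp [hx0, hz0, hodd]
  · fin_cases i <;> fin_cases j <;> first
      | exact absurd rfl hij
      | exact hxz
      | exact fun hj => hxz hj.symm
      | exact h1
      | exact fun hj => h1 hj.symm
      | exact h2
      | exact fun hj => h2 hj.symm

/-- The upper half space without `P`. -/
def upperOff (P : Finset Space) : Set Space := {x | 0 < height x} ∩ (↑P : Set Space)ᶜ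

lemma isPreconnected_upperOff (P : Finset Space) : IsPreconnected (upperOff P) := by
  set Ψ : Space → Space := fun x => x + (Real.exp (height x) - height x) • unit3 2 with hΨ
  have hh : ∀ x, height (Ψ x) = Real.exp (height x) := fun x => by
    simp [hΨ, height, unit3]
  have hinj : Function.Injective Ψ := fun a b e => by
    have e' : height a = height b := Real.exp_injective (by rw [← hh a, ← hh b, e])
    have := e
    simp only [hΨ, e', add_left_inj] at this
    exact this
  have hcont : Continuous Ψ := by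
    have := continuous_height
    simp only [hΨ]; fun_prop
  have hpre : ((Ψ ⁻¹' (↑P : Set Space))).Countable := (P.finite_toSet.countable).preimage hinj
  have himg : Ψ '' (Ψ ⁻¹' (↑P : Set Space))ᶜ = upperOff P := by
    ext w
    constructor
    · rintro ⟨x, hx, rfl⟩
      exact ⟨by show 0 < height (Ψ x); rw [hh]; exact Real.exp_pos _, hx⟩
    · rintro ⟨hw, hwP⟩
      have hx : height (w + (Real.log (height w) - height w) • unit3 2) = Real.log (height w) := by
        simp [height, unit3]
      have e : Ψ (w + (Real.log (height w) - height w) • unit3 2) = w := by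
        simp only [hΨ, hx, Real.exp_log hw]
        rw [add_assoc, ← add_smul, sub_add_sub_cancel', sub_self, zero_smul, add_zero]
      exact ⟨_, fun hm => hwP (e ▸ hm), e⟩
  rw [← himg]
  exact ((hpre.isPathConnected_compl_of_one_lt_rank
    (by rw [← Module.finrank_eq_rank]; simp)).isConnected.isPreconnected).image _ hcont.continuousOn

/-- An odd state is zero or of one strict sign above the plane. -/
theorem SecondState.odd_sign (h : SecondState P v φ₀ e₀ μ φ F)
    (hodd : ∀ x, φ (mirror x) = -φ x) :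
    (∀ x, φ x = 0) ∨ ∃ σ : ℝ, (σ = 1 ∨ σ = -1) ∧ (∀ x, 0 < height x → 0 ≤ σ * φ x) ∧
      ∀ x ∈ upperOff P, 0 < σ * φ x := by
  by_cases hall : ∀ x, 0 < height x → φ x = 0
  · refine Or.inl fun x => ?_
    rcases lt_trichotomy (height x) 0 with hlt | heq | hgt
    · have h1 := hall (mirror x) (by rw [height_mirror]; linarith)
      rwa [hodd, neg_eq_zero] at h1
    · have := hodd x
      rw [mirror_of_height_zero heq] at this
      linarith
    · exact hall x hgt
  push Not at hall
  obtain ⟨x₀, hx₀, hx₀0⟩ := hall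
  obtain ⟨σ, hσ, hσ0⟩ : ∃ σ : ℝ, (σ = 1 ∨ σ = -1) ∧ 0 < σ * φ x₀ := by
    rcases lt_or_gt_of_ne hx₀0 with hl | hg
    · exact ⟨-1, Or.inr rfl, by linarith⟩
    · exact ⟨1, Or.inl rfl, by linarith⟩
  have hσσ : σ * σ = 1 := by rcases hσ with rfl | rfl <;> norm_num
  have hnn : ∀ x, 0 < height x → 0 ≤ σ * φ x := fun x hx => by
    by_contra! hlt
    have := mul_neg_of_pos_of_neg hσ0 hlt
    rw [mul_mul_mul_comm, hσσ, one_mul] at this
    linarith [h.odd_same_sign hodd hx₀ hx]
  refine Or.inr ⟨σ, hσ, hnn, fun x hx => ?_⟩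
  have hU : IsOpen (upperOff P) :=
    (isOpen_lt continuous_const continuous_height).inter P.finite_toSet.isClosed.isOpen_compl
  set S := {w | 0 < σ * φ w} with hS
  have hSo : IsOpen S := isOpen_lt continuous_const (h.cont.const_smul σ)
  have hne : (upperOff P ∩ S).Nonempty := by
    obtain ⟨q, ⟨hq1, hq2⟩, hq3⟩ := ((P.finite_toSet.countable).dense_compl ℝ).inter_open_nonempty
      (S ∩ {w | 0 < height w}) (hSo.inter (isOpen_lt continuous_const continuous_height))
      ⟨x₀, hσ0, hx₀⟩
    exact ⟨q, ⟨hq2, hq3⟩, hq1⟩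
  refine ((isPreconnected_upperOff P).subset_of_closure_inter_subset hSo hne ?_) hx
  rintro w ⟨hwcl, hwU⟩
  obtain ⟨C, r₁, hr₁, hC⟩ := h.upper w (by simpa using hwU.2)
  obtain ⟨r₂, hr₂, hr₂U⟩ := Metric.isOpen_iff.1 hU w hwU
  set r := min r₁ r₂
  have hr : 0 < r := lt_min hr₁ hr₂
  have hsub : WeakSubPoisson (ball w r) (-fun u => σ * φ u)
      (-fun u => σ * (2 * (v u - μ) * φ u)) := by
    have h' := ((((h.eigen.weakPoisson h.level h.cont).mono (subset_univ (ball w r))).const_mul
      σ).const_mul (-1)).toSub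
    simp only [neg_one_mul] at h'
    exact h'
  have hball : ball w r ⊆ upperOff P := (ball_subset_ball (min_le_right _ _)).trans hr₂U
  rcases positive (ball w r) (fun u => σ * φ u) _ (2 * (C - μ)) isOpen_ball
    (convex_ball w r).isPreconnected (h.cont.const_smul σ).continuousOn
    (fun u hu => hnn u (hball hu).1) hsub
    (by
      filter_upwards [hC] with u hu hm
      rw [mul_left_comm σ]
      exact mul_le_mul_of_nonneg_right (by linarith [hu (ball_subset_ball (min_le_left _ _) hm)])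
        (hnn u (hball hm).1)) with hz | hp
  · obtain ⟨u, hu, huS⟩ := mem_closure_iff.1 hwcl (ball w r) isOpen_ball (mem_ball_self hr)
    exact absurd (hz u hu) huS.ne'
  · exact hp w (mem_ball_self hr)

/-- Linear combinations of states. -/
lemma SecondState.add_mul (h : SecondState P v φ₀ e₀ μ φ F) (h' : SecondState P v φ₀ e₀ μ ψ G)
    (c : ℝ) : SecondState P v φ₀ e₀ μ (fun x => φ x + c * ψ x) fun a x => F a x + c * G a x :=
  ⟨h.level, h.upper, ⟨h.eigen.h1.add (h'.eigen.h1.const_mul c), fun g G' hg => by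
    rw [bil_comm, bil_add_mul h.level μ c hg h.eigen.h1 h'.eigen.h1, bil_comm v μ g G' φ F,
      bil_comm v μ g G' ψ G, h.eigen.eqn g G' hg, h'.eigen.eqn g G' hg]
    ring⟩,
    h.cont.add (h'.cont.const_smul c), h.c1.add (contDiffOn_const.mul h'.c1)⟩

/-- The odd state is unique up to a factor. -/
theorem SecondState.odd_unique (h : SecondState P v φ₀ e₀ μ φ F)
    (h' : SecondState P v φ₀ e₀ μ ψ G) (hodd : ∀ x, φ (mirror x) = -φ x)
    (hodd' : ∀ x, ψ (mirror x) = -ψ x) (hψ : ∃ x, ψ x ≠ 0) : ∃ c : ℝ, ∀ x, φ x = c * ψ x := by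
  obtain ⟨q, hqU⟩ : (upperOff P).Nonempty := by
    obtain ⟨q, hq1, hq2⟩ := ((P.finite_toSet.countable).dense_compl ℝ).inter_open_nonempty
      {w | 0 < height w} (isOpen_lt continuous_const continuous_height) ⟨unit3 2, by
        simp [height, unit3]⟩
    exact ⟨q, hq1, hq2⟩
  rcases h'.odd_sign hodd' with hz | ⟨σ, -, -, hpos⟩
  · exact absurd (hz _) hψ.choose_spec
  have hq : ψ q ≠ 0 := fun e => by simpa [e] using hpos q hqU
  refine ⟨φ q / ψ q, ?_⟩
  rcases (h.add_mul h' (-(φ q / ψ q))).odd_sign (fun x => by rw [hodd, hodd']; ring) with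
    hz | ⟨τ, -, -, hp⟩
  · exact fun x => by have := hz x; linarith
  · have := hp q hqU
    rw [neg_mul, div_mul_cancel₀ _ hq, add_neg_cancel, mul_zero] at this
    exact absurd this (lt_irrefl 0)

/-- An axially and mirror symmetric function sees only `‖x‖` and `|height x|`. -/
lemma eq_of_axialSym {β : Type*} {f : Space → β} (hf : AxialSym f) (h1 : ‖x‖ = ‖y‖)
    (h2 : |height x| = |height y|) : f x = f y := by
  wlog h3 : height x = height y generalizing y
  · have h4 : height x = -height y := (abs_eq_abs.1 h2).resolve_left h3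
    rw [← hf.2 y]
    refine this ?_ (by rw [height_mirror, abs_neg, h2]) (by rw [height_mirror, h4])
    rw [h1, ← sq_eq_sq₀ (norm_nonneg _) (norm_nonneg _), EuclideanSpace.norm_sq_eq,
      EuclideanSpace.norm_sq_eq]
    simp [Fin.sum_univ_three, mirror, height, unit3]
    ring
  have e : x 0 ^ 2 + x 1 ^ 2 = y 0 ^ 2 + y 1 ^ 2 := by
    have := congrArg (· ^ 2) h1
    simp only [EuclideanSpace.norm_sq_eq, Fin.sum_univ_three, Real.norm_eq_abs, sq_abs] at this
    simp only [height] at h3
    rw [h3] at this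
    linarith
  obtain ⟨θ, hθ⟩ : ∃ θ : ℝ, rot θ x = y := by
    by_cases h0 : x 0 ^ 2 + x 1 ^ 2 = 0
    · have hx0 : x 0 = 0 := by nlinarith [sq_nonneg (x 1)]
      have hx1 : x 1 = 0 := by nlinarith [sq_nonneg (x 0)]
      have hy0 : y 0 = 0 := by nlinarith [sq_nonneg (y 1)]
      have hy1 : y 1 = 0 := by nlinarith [sq_nonneg (y 0)]
      refine ⟨0, ?_⟩
      ext i
      fin_cases i
      · simp [rot, hx0, hy0]
      · simp [rot, hx1, hy1]
      · simpa [rot, height] using h3
    · set c : ℂ := ⟨(x 0 * y 0 + x 1 * y 1) / (x 0 ^ 2 + x 1 ^ 2),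
        (x 0 * y 1 - x 1 * y 0) / (x 0 ^ 2 + x 1 ^ 2)⟩ with hc
      have hn : ‖c‖ = 1 := by
        rw [Complex.norm_def, Real.sqrt_eq_one, Complex.normSq_mk]
        field_simp
        nlinarith
      have hc0 : c ≠ 0 := fun e => by simp [e] at hn
      refine ⟨Complex.arg c, ?_⟩
      clear_value c
      have hcos : Real.cos (Complex.arg c) = c.re := by rw [Complex.cos_arg hc0, hn, div_one]
      have hsin : Real.sin (Complex.arg c) = c.im := by rw [Complex.sin_arg, hn, div_one]
      ext i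
      fin_cases i
      · show Real.cos (Complex.arg c) * x 0 - Real.sin (Complex.arg c) * x 1 = y 0
        rw [hcos, hsin, hc]
        show (x 0 * y 0 + x 1 * y 1) / (x 0 ^ 2 + x 1 ^ 2) * x 0 -
          (x 0 * y 1 - x 1 * y 0) / (x 0 ^ 2 + x 1 ^ 2) * x 1 = y 0
        rw [div_mul_eq_mul_div, div_mul_eq_mul_div, div_sub_div_same, div_eq_iff h0]
        ring
      · show Real.sin (Complex.arg c) * x 0 + Real.cos (Complex.arg c) * x 1 = y 1
        rw [hcos, hsin, hc]
        show (x 0 * y 1 - x 1 * y 0) / (x 0 ^ 2 + x 1 ^ 2) * x 0 +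
          (x 0 * y 0 + x 1 * y 1) / (x 0 ^ 2 + x 1 ^ 2) * x 1 = y 1
        rw [div_mul_eq_mul_div, div_mul_eq_mul_div, ← add_div, div_eq_iff h0]
        ring
      · simpa [rot, height] using h3
  rw [← hθ, hf.1]

/-- An even axially symmetric state does not alternate on four ordered curves to infinity. -/
theorem SecondState.not_alternating (h : SecondState P v φ₀ e₀ μ φ F) (hsym : AxialSym φ)
    {x₀ : ℝ} (hx₀ : 0 ≤ x₀) {H : Fin 4 → ℝ → ℝ} (hc : ∀ i, ContinuousOn (H i) (Ici x₀))
    (hrange : ∀ i, ∀ t ≥ x₀, 0 ≤ H i t ∧ H i t ≤ t)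
    (hlt : ∀ t ≥ x₀, H 0 t < H 1 t ∧ H 1 t < H 2 t ∧ H 2 t < H 3 t)
    (hsgn : ∀ x : Space, x₀ ≤ ‖x‖ → (|height x| = H 0 ‖x‖ → 0 < φ x) ∧
      (|height x| = H 1 ‖x‖ → φ x < 0) ∧ (|height x| = H 2 ‖x‖ → 0 < φ x) ∧
      (|height x| = H 3 ‖x‖ → φ x < 0)) : False := by
  set γ : Fin 4 → ℝ → Space := fun i t => !₂[√(t ^ 2 - H i t ^ 2), 0, H i t] with hγ
  have hΦ : ∀ i, ∀ t ≥ x₀, ‖γ i t‖ = t ∧ |height (γ i t)| = H i t := fun i t ht => by
    obtain ⟨h0, h1⟩ := hrange i t ht
    have ht0 : 0 ≤ t := hx₀.trans ht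
    refine ⟨?_, by simp [hγ, height, abs_of_nonneg h0]⟩
    rw [← sq_eq_sq₀ (norm_nonneg _) ht0, EuclideanSpace.norm_sq_eq]
    simp [hγ, Fin.sum_univ_three, Real.sq_sqrt (by nlinarith : (0 : ℝ) ≤ t ^ 2 - H i t ^ 2)]
  have hs : ∀ t ≥ x₀, 0 < φ (γ 0 t) ∧ φ (γ 1 t) < 0 ∧ 0 < φ (γ 2 t) ∧ φ (γ 3 t) < 0 := fun t ht =>
    have key : ∀ i, x₀ ≤ ‖γ i t‖ ∧ |height (γ i t)| = H i ‖γ i t‖ := fun i => by
      obtain ⟨a, b⟩ := hΦ i t ht
      rw [a]; exact ⟨ht, b⟩
    ⟨(hsgn _ (key 0).1).1 (key 0).2, (hsgn _ (key 1).1).2.1 (key 1).2,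
      (hsgn _ (key 2).1).2.2.1 (key 2).2, (hsgn _ (key 3).1).2.2.2 (key 3).2⟩
  obtain ⟨h0, h1, h2, h3⟩ := hs x₀ le_rfl
  have hcp := not_joinedIn_sign (Φ := fun x : Space => (‖x‖, |height x|))
    (continuous_norm.prodMk continuous_height.abs) (f := φ) (D := univ)
    (fun x _ y _ e => eq_of_axialSym hsym (congrArg Prod.fst e) (congrArg Prod.snd e)) (γ := γ) hc
    hlt (fun i t ht => ⟨trivial, Prod.ext (hΦ i t ht).1 (hΦ i t ht).2⟩) hs
  have e : {w : Space | -φ w ≠ 0} = {w | φ w ≠ 0} := by simp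
  have hsep : ∀ a b, 0 < φ a → φ b < 0 → ¬ JoinedIn {w | φ w ≠ 0} a b := fun a b ha hb hj =>
    (pos_of_joinedIn h.cont hj ha).not_gt hb
  by_cases hj : JoinedIn {w | φ w ≠ 0} (γ 0 x₀) (γ 2 x₀)
  · have hj' : ¬ JoinedIn {w | φ w ≠ 0} (γ 1 x₀) (γ 3 x₀) := fun hn => hcp
      ⟨(joinedIn_pos h.cont hj h0).mono fun w hw => ⟨trivial, hw⟩,
        (joinedIn_pos (φ := fun w => -φ w) h.cont.neg (e ▸ hn) (neg_pos.2 h1)).mono
          fun w (hw : 0 < -φ w) => ⟨trivial, (neg_pos.1 hw : φ w < 0)⟩⟩
    refine courantBound P v φ₀ e₀ μ φ F h ![γ 1 x₀, γ 3 x₀, γ 0 x₀] (fun i => ?_) fun i j hij => ?_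
    · fin_cases i <;> simp [h1.ne, h3.ne, h0.ne']
    · fin_cases i <;> fin_cases j <;> first
        | exact absurd rfl hij
        | exact hj'
        | exact fun hn => hj' hn.symm
        | exact hsep _ _ h0 h1
        | exact fun hn => hsep _ _ h0 h1 hn.symm
        | exact hsep _ _ h0 h3
        | exact fun hn => hsep _ _ h0 h3 hn.symm
  · refine courantBound P v φ₀ e₀ μ φ F h ![γ 0 x₀, γ 2 x₀, γ 1 x₀] (fun i => ?_) fun i j hij => ?_
    · fin_cases i <;> simp [h0.ne', h2.ne', h1.ne]
    · fin_cases i <;> fin_cases j <;> first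
        | exact absurd rfl hij
        | exact hj
        | exact fun hn => hj hn.symm
        | exact hsep _ _ h0 h1
        | exact fun hn => hsep _ _ h0 h1 hn.symm
        | exact hsep _ _ h2 h1
        | exact fun hn => hsep _ _ h2 h1 hn.symm

end Vale.Agent.P363.Top
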