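import Vale.Agent.P363.Base

/-!
P363: the hypotheses of Courant's nodal bound for the second level of `-Δ/2 + v` on `ℝ³`.
-/

noncomputable section

namespace Vale.Agent.P363.Top

open MeasureTheory Filter Set
open scoped BigOperators Topology

/-- A function in `H¹(ℝ³)` with its weak gradient. -/
structure IsH1 (f : Space → ℝ) (F : Fin 3 → Space → ℝ) : Prop where
  memLp : MemLp f 2
  memLp_grad : ∀ a, MemLp (F a) 2
  grad : HasWeakGrad univ f F

/-- The bilinear form of `-Δ/2 + v - e`. -/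
def bil (v : Space → ℝ) (e : ℝ) (f : Space → ℝ) (F : Fin 3 → Space → ℝ) (g : Space → ℝ)
    (G : Fin 3 → Space → ℝ) : ℝ :=
  ∫ x, ((1 / 2 : ℝ) * ∑ a, F a x * G a x + (v x - e) * f x * g x)

/-- `f` solves `(-Δ/2 + v) f = e f` in the form sense. -/
structure IsFormEigen (v : Space → ℝ) (e : ℝ) (f : Space → ℝ) (F : Fin 3 → Space → ℝ) : Prop where
  h1 : IsH1 f F
  eqn : ∀ g G, IsH1 g G → bil v e f F g G = 0

/-- `μ` bounds the form from below orthogonally to the positive ground state `φ₀`. -/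
structure SecondLevel (v φ₀ : Space → ℝ) (e₀ μ : ℝ) : Prop where
  loc : LocallyIntegrable v
  pot : ∀ f F, IsH1 f F → Integrable fun x => v x * f x ^ 2
  ground : ∃ F₀, IsFormEigen v e₀ φ₀ F₀
  pos : ∀ᵐ x, 0 < φ₀ x
  le : ∀ f F, IsH1 f F → ∫ x, f x * φ₀ x = 0 → 0 ≤ bil v μ f F f F

/-- `v` is bounded above near every point outside `P`. -/
def LocalUpper (P : Finset Space) (v : Space → ℝ) : Prop :=
  ∀ x, x ∉ P → ∃ C r : ℝ, 0 < r ∧ ∀ᵐ y, y ∈ Metric.ball x r → v y ≤ C

/-- An eigenfunction at the second level, regular outside the finite set `P`. -/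
structure SecondState (P : Finset Space) (v φ₀ : Space → ℝ) (e₀ μ : ℝ) (φ : Space → ℝ)
    (F : Fin 3 → Space → ℝ) : Prop where
  level : SecondLevel v φ₀ e₀ μ
  upper : LocalUpper P v
  eigen : IsFormEigen v μ φ F
  cont : Continuous φ
  c1 : ContDiffOn ℝ 1 φ (↑P : Set Space)ᶜ

/-- Three points in three different nodal domains do not exist. -/
def CourantStmt : Prop :=
  ∀ (P : Finset Space) (v φ₀ : Space → ℝ) (e₀ μ : ℝ) (φ : Space → ℝ) (F : Fin 3 → Space → ℝ),
    SecondState P v φ₀ e₀ μ φ F → ∀ x : Fin 3 → Space, (∀ i, φ (x i) ≠ 0) →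
      ¬ Pairwise fun i j => ¬ JoinedIn {y | φ y ≠ 0} (x i) (x j)

end Vale.Agent.P363.Top
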