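import Vale.Agent.P363.Top.CourantSpec
import Vale.Agent.P363.Tool.MaxSpec
import Vale.Agent.P363.Tool.Weak.Poisson

/-!
P363: nodal domains and the existence of a regular boundary point between two of them.
-/

noncomputable section

namespace Vale.Agent.P363.Top

open MeasureTheory Filter Set Metric
open scoped BigOperators Topology

variable {φ : Space → ℝ} {x y : Space}

/-- The nodal domain of a point. -/
def domainOf (φ : Space → ℝ) (x : Space) : Set Space := connectedComponentIn {y | φ y ≠ 0} x

lemma isOpen_nonzero (hc : Continuous φ) : IsOpen {y | φ y ≠ 0} :=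
  isOpen_ne_fun hc continuous_const

lemma isOpen_domainOf (hc : Continuous φ) : IsOpen (domainOf φ x) :=
  (isOpen_nonzero hc).connectedComponentIn

lemma domainOf_ne_zero (h : y ∈ domainOf φ x) : φ y ≠ 0 :=
  connectedComponentIn_subset {y | φ y ≠ 0} x h

lemma domainOf_closed (hc : Continuous φ) (hy : y ∈ closure (domainOf φ x)) (h0 : φ y ≠ 0) :
    y ∈ domainOf φ x := by
  obtain ⟨z, hzy, hzx⟩ := mem_closure_iff.1 hy _ (isOpen_domainOf hc) (mem_connectedComponentIn h0)
  rw [domainOf, connectedComponentIn_eq hzx, ← connectedComponentIn_eq hzy]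
  exact mem_connectedComponentIn h0

lemma joinedIn_of_mem_domainOf (hc : Continuous φ) (hy : y ∈ domainOf φ x) :
    JoinedIn {z | φ z ≠ 0} x y := by
  have hx : φ x ≠ 0 := connectedComponentIn_nonempty_iff.1 ⟨y, hy⟩
  have hconn : IsConnected (domainOf φ x) := isConnected_connectedComponentIn_iff.2 hx
  exact (((isOpen_domainOf hc).isConnected_iff_isPathConnected.1 hconn).joinedIn x
    (mem_connectedComponentIn hx) y hy).mono (connectedComponentIn_subset _ _)

lemma pos_domainOf (hc : Continuous φ) (hx : 0 < φ x) (hy : y ∈ domainOf φ x) : 0 < φ y := by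
  by_contra! h
  obtain ⟨z, hz, hz0⟩ := isPreconnected_connectedComponentIn.intermediate_value hy
    (mem_connectedComponentIn (F := {z | φ z ≠ 0}) hx.ne') hc.continuousOn ⟨h, hx.le⟩
  exact domainOf_ne_zero hz hz0

lemma disjoint_domainOf (h : ¬ JoinedIn {z | φ z ≠ 0} x y) (hc : Continuous φ) :
    Disjoint (domainOf φ x) (domainOf φ y) := by
  rw [Set.disjoint_left]
  exact fun z h1 h2 =>
    h ((joinedIn_of_mem_domainOf hc h1).trans (joinedIn_of_mem_domainOf hc h2).symm)

/-- A finite set does not disconnect space. -/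
lemma isPreconnected_compl_finset (P : Finset Space) : IsPreconnected (↑P : Set Space)ᶜ :=
  ((P.finite_toSet.countable).isPathConnected_compl_of_one_lt_rank
    (by rw [← Module.finrank_eq_rank]; simp)).isConnected.isPreconnected

/-- A positive derivative along a segment. -/
lemma strictMono_segment {f : Space → ℝ} {e : Space} {B : Set Space}
    (hB : Convex ℝ B) (hd : ∀ z ∈ B, DifferentiableAt ℝ f z ∧ 0 < fderiv ℝ f z e) {t : ℝ}
    (ht : 0 < t) (hx : x ∈ B) (hxt : x + t • e ∈ B) :
    (∀ s ∈ Icc 0 t, f x ≤ f (x + s • e)) ∧ f x < f (x + t • e) := by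
  have hmem : ∀ s ∈ Icc 0 t, x + s • e ∈ B := fun s hs => by
    have := hB hx hxt (sub_nonneg.2 ((div_le_one ht).2 hs.2)) (div_nonneg hs.1 ht.le)
      (sub_add_cancel 1 (s / t))
    have e' : (1 - s / t) • x + (s / t) • (x + t • e) = x + s • e := by
      rw [smul_add, smul_smul, div_mul_cancel₀ _ ht.ne', sub_smul, one_smul]
      abel
    rwa [e'] at this
  have hder : ∀ s ∈ Icc 0 t, HasDerivAt (fun s => f (x + s • e)) (fderiv ℝ f (x + s • e) e) s :=
    fun s hs => by
      have h2 : HasDerivAt (fun s : ℝ => x + s • e) e s := by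
        simpa using ((hasDerivAt_id s).smul_const e).const_add x
      exact (hd _ (hmem s hs)).1.hasFDerivAt.comp_hasDerivAt s h2
  have hm : StrictMonoOn (fun s => f (x + s • e)) (Icc 0 t) := by
    refine strictMonoOn_of_deriv_pos (convex_Icc _ _)
      (fun s hs => (hder s hs).continuousAt.continuousWithinAt) fun s hs => ?_
    rw [interior_Icc] at hs
    rw [(hder s (Ioo_subset_Icc_self hs)).deriv]
    exact (hd _ (hmem s (Ioo_subset_Icc_self hs))).2
  refine ⟨fun s hs => ?_, ?_⟩
  · simpa using hm.monotoneOn (left_mem_Icc.2 ht.le) hs hs.1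
  · simpa using hm (left_mem_Icc.2 ht.le) (right_mem_Icc.2 ht.le) ht

/-- A positive nodal domain which is not the only one touches one other domain at a regular point
outside `P`. -/
theorem exists_adjacent (hH : HopfStmt) {P : Finset Space} {v : Space → ℝ} {μ : ℝ}
    (hc : Continuous φ) (h1 : ContDiffOn ℝ 1 φ (↑P : Set Space)ᶜ) (hu : LocalUpper P v)
    (hw : WeakPoisson univ φ fun z => 2 * (v z - μ) * φ z) {x₀ x₁ : Space} (h0 : 0 < φ x₀)
    (hx₁ : φ x₁ ≠ 0) (hne : x₁ ∉ domainOf φ x₀) :
    ∃ y r C q, 0 < r ∧ φ y = 0 ∧ y ∈ closure (domainOf φ x₀) ∧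
      (∀ᵐ z, z ∈ ball y r → v z ≤ C) ∧ q ∉ domainOf φ x₀ ∧
      ∀ z ∈ ball y r, φ z ≠ 0 → z ∈ domainOf φ x₀ ∨ z ∈ domainOf φ q := by
  set N := domainOf φ x₀ with hN
  set D : Set Space := (↑P : Set Space)ᶜ with hD
  have hDo : IsOpen D := P.finite_toSet.isClosed.isOpen_compl
  have hdense : Dense D := P.finite_toSet.countable.dense_compl ℝ
  obtain ⟨z, hzD, hzc, hzN⟩ : ∃ z ∈ D, z ∈ closure N ∧ z ∉ N := by
    by_contra! hno
    obtain ⟨p, hpN, hpD⟩ := hdense.inter_open_nonempty N (isOpen_domainOf hc)
      ⟨x₀, mem_connectedComponentIn h0.ne'⟩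
    obtain ⟨q, hqN, hqD⟩ := hdense.inter_open_nonempty (domainOf φ x₁) (isOpen_domainOf hc)
      ⟨x₁, mem_connectedComponentIn hx₁⟩
    have hcov : D ⊆ N ∪ (closure N)ᶜ := fun w hw => by
      by_cases hwc : w ∈ closure N
      · exact Or.inl (hno w hw hwc)
      · exact Or.inr hwc
    have hsub : D ⊆ N := (isPreconnected_compl_finset P).subset_left_of_subset_union
      (isOpen_domainOf hc) isClosed_closure.isOpen_compl
      (Set.disjoint_left.2 fun w hw hw' => hw' (subset_closure hw)) hcov ⟨p, hpD, hpN⟩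
    refine hne ?_
    rw [hN, domainOf, connectedComponentIn_eq (hsub hqD), ← connectedComponentIn_eq hqN]
    exact mem_connectedComponentIn hx₁
  obtain ⟨C, ρ₀, hρ₀, hC⟩ := hu z (by simpa [hD] using hzD)
  obtain ⟨ρ₁, hρ₁, hρ₁D⟩ := Metric.isOpen_iff.1 hDo z hzD
  set ρ := min ρ₀ ρ₁ with hρdef
  have hρ : 0 < ρ := lt_min hρ₀ hρ₁
  obtain ⟨p, hpN, hpz⟩ := Metric.mem_closure_iff.1 hzc (ρ / 8) (by positivity)
  obtain ⟨y, hyN, hy⟩ := (isOpen_domainOf hc).isClosed_compl.exists_infDist_eq_dist ⟨z, hzN⟩ p
  set R := dist p y with hR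
  have hR0 : 0 < R := dist_pos.2 fun e => hyN (e ▸ hpN)
  have hRz : R ≤ dist p z := hy ▸ infDist_le_dist_of_mem hzN
  have hpz' : dist p z < ρ / 8 := dist_comm z p ▸ hpz
  have hball : ball p R ⊆ N := fun w hw => by
    by_contra hwN
    have hle : R ≤ dist p w := hy ▸ infDist_le_dist_of_mem hwN
    exact (mem_ball'.1 hw).not_ge hle
  have hycl : y ∈ closure N := by
    refine closure_mono hball ?_
    rw [closure_ball p hR0.ne', mem_closedBall']
  have hy0 : φ y = 0 := by
    by_contra h
    exact hyN (domainOf_closed hc hycl h)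
  have hsubz : ball y (ρ / 2) ⊆ ball z ρ := fun w hw => by
    rw [mem_ball] at hw ⊢
    have t1 := dist_triangle w y z
    have t2 := dist_triangle_left y z p
    linarith
  have hsubp : ball p R ⊆ ball z ρ := fun w hw => by
    rw [mem_ball] at hw ⊢
    linarith [dist_triangle w p z]
  have hyD : y ∈ D := hρ₁D (ball_subset_ball (min_le_right _ _)
    (hsubz (mem_ball_self (by positivity))))
  have hvC : ∀ᵐ w, w ∈ ball z ρ → v w ≤ C := by
    filter_upwards [hC] with w hw hm using hw (ball_subset_ball (min_le_left _ _) hm)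
  -- Hopf at the touching point
  have hsup : WeakSubPoisson (ball p R) (-φ) (-fun w => 2 * (v w - μ) * φ w) := by
    have h := ((hw.mono (subset_univ (ball p R))).const_mul (-1)).toSub
    simp only [neg_one_mul] at h
    exact h
  obtain ⟨-, hL⟩ := hH p R φ _ (2 * (C - μ)) hR0 hc.continuousOn hsup
    (by
      filter_upwards [hvC] with w hw hm
      exact mul_le_mul_of_nonneg_right (by linarith [hw (hsubp hm)])
        (pos_domainOf hc h0 (hball hm)).le)
    (fun w hw => pos_domainOf hc h0 (hball hw)) y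
    (mem_sphere'.2 rfl) hy0.ge
  have hder : 0 < fderiv ℝ φ y (p - y) := hL _
    (((h1.contDiffAt (hDo.mem_nhds hyD)).differentiableAt one_ne_zero).hasFDerivAt) hy0
  set e := p - y with he
  have he' : ‖e‖ = R := by rw [he, hR, dist_eq_norm]
  obtain ⟨δ, hδ, hδ'⟩ := Metric.eventually_nhds_iff.1
    (((((h1.continuousOn_fderiv_of_isOpen hDo le_rfl).continuousAt
      (hDo.mem_nhds hyD)).clm_apply (continuousAt_const (y := e))).eventually_const_lt hder).and
        (hDo.mem_nhds hyD))
  set δ' := min δ (ρ / 2) with hδdef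
  have hδ'0 : 0 < δ' := lt_min hδ (by positivity)
  have hd : ∀ w ∈ ball y δ', DifferentiableAt ℝ φ w ∧ 0 < fderiv ℝ φ w e := fun w hw => by
    obtain ⟨a, b⟩ := hδ' (mem_ball.1 (ball_subset_ball (min_le_left _ _) hw))
    exact ⟨(h1.contDiffAt (hDo.mem_nhds b)).differentiableAt one_ne_zero, a⟩
  set t := min (1 / 2) (δ' / (4 * R)) with htdef
  have ht : 0 < t := lt_min (by norm_num) (by positivity)
  have htR : t * R ≤ δ' / 4 := by
    calc t * R ≤ δ' / (4 * R) * R := by gcongr; exact min_le_right _ _
      _ = δ' / 4 := by field_simp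
  have hte : ‖t • e‖ ≤ δ' / 4 := by rw [norm_smul, Real.norm_of_nonneg ht.le, he']; exact htR
  have hyp : y + t • e ∈ ball y δ' := by
    rw [mem_ball, dist_eq_norm]; simp only [add_sub_cancel_left]; linarith
  have hym : y - t • e ∈ ball y δ' := by
    rw [mem_ball, dist_eq_norm]
    simp only [sub_sub_cancel_left, norm_neg]
    linarith
  have hpos : 0 < φ (y + t • e) :=
    hy0 ▸ (strictMono_segment (convex_ball y δ') hd ht (mem_ball_self hδ'0) hyp).2
  have hneg : φ (y - t • e) < 0 := by
    have h := (strictMono_segment (convex_ball y δ') hd ht hym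
      (by rw [sub_add_cancel]; exact mem_ball_self hδ'0)).2
    rwa [sub_add_cancel, hy0] at h
  obtain ⟨r₁, hr₁, hr₁'⟩ := Metric.eventually_nhds_iff.1
    (hc.continuousAt.eventually_const_lt hpos)
  obtain ⟨r₂, hr₂, hr₂'⟩ := Metric.eventually_nhds_iff.1
    (hc.continuousAt.eventually_lt_const hneg)
  set r := min (min r₁ r₂) (δ' / 2) with hrdef
  have hr : 0 < r := lt_min (lt_min hr₁ hr₂) (by positivity)
  have hin : y + t • e ∈ N := hball <| by
    rw [mem_ball, dist_eq_norm, show y + t • e - p = -((1 - t) • e) by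
      rw [sub_smul, one_smul, he]; abel, norm_neg, norm_smul, he',
      Real.norm_of_nonneg (by linarith [min_le_left (1 / 2 : ℝ) (δ' / (4 * R))])]
    nlinarith
  have hseg : ∀ {w w' : Space}, (∀ s ∈ segment ℝ w w', φ s ≠ 0) →
      domainOf φ w = domainOf φ w' := fun {w w'} h =>
    connectedComponentIn_eq
      ((convex_segment w w').isPreconnected.subset_connectedComponentIn (left_mem_segment ℝ w w')
        (fun s hs => h s hs) (right_mem_segment ℝ w w'))
  refine ⟨y, r, C, y - t • e, hr, hy0, hycl, ?_, fun h => ?_, fun w hw hw0 => ?_⟩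
  · filter_upwards [hvC] with w hw hm
    exact hw (hsubz (ball_subset_ball ((min_le_right _ _).trans
      (by linarith [min_le_right δ (ρ / 2)])) hm))
  · exact (pos_domainOf hc h0 h).not_gt hneg
  have hwδ : w ∈ ball y δ' := ball_subset_ball ((min_le_right _ _).trans (by linarith)) hw
  have hwr : dist w y < r := hw
  rcases lt_or_gt_of_ne hw0 with hlt | hgt
  · right
    have hwt : w - t • e ∈ ball y δ' := by
      rw [mem_ball]
      have h4 : dist (w - t • e) w ≤ δ' / 4 := by
        rw [dist_eq_norm]; simpa only [sub_sub_cancel_left, norm_neg] using hte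
      linarith [dist_triangle (w - t • e) w y, min_le_right (min r₁ r₂) (δ' / 2)]
    have hcmp : ∀ s ∈ Icc 0 t, φ (w - t • e + s • e) < 0 := fun s hs => by
      rcases hs.2.eq_or_lt with rfl | hst
      · simpa using hlt
      have h' : w - t • e + s • e ∈ ball y δ' := by
        rw [mem_ball]
        have : dist (w - t • e + s • e) w ≤ δ' / 4 := by
          rw [dist_eq_norm, show w - t • e + s • e - w = -((t - s) • e) by rw [sub_smul]; abel,
            norm_neg, norm_smul, Real.norm_of_nonneg (sub_nonneg.2 hs.2), he']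
          exact le_trans (by gcongr; linarith [hs.1]) htR
        linarith [dist_triangle (w - t • e + s • e) w y, min_le_right (min r₁ r₂) (δ' / 2)]
      have h := (strictMono_segment (convex_ball y δ') hd (sub_pos.2 hst) h'
        (by rwa [add_assoc, ← add_smul, add_sub_cancel, sub_add_cancel])).2
      rw [add_assoc, ← add_smul, add_sub_cancel, sub_add_cancel] at h
      linarith
    have e1 : domainOf φ (w - t • e) = domainOf φ w := hseg fun s hs => by
      rw [segment_eq_image'] at hs
      obtain ⟨θ, hθ, rfl⟩ := hs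
      simp only [sub_sub_cancel, smul_smul]
      exact (hcmp _ ⟨mul_nonneg hθ.1 ht.le, mul_le_of_le_one_left ht.le hθ.2⟩).ne
    have e2 : domainOf φ (y - t • e) = domainOf φ (w - t • e) := hseg fun s hs => by
      have hb : s ∈ ball (y - t • e) r := (convex_ball _ _).segment_subset (mem_ball_self hr)
        (by rw [mem_ball, dist_sub_right]; exact hwr) hs
      exact (hr₂' (lt_of_lt_of_le (mem_ball.1 hb)
        ((min_le_left _ _).trans (min_le_right _ _)))).ne
    rw [e2, e1]
    exact mem_connectedComponentIn hw0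
  · left
    have hwt : w + t • e ∈ ball y δ' := by
      rw [mem_ball]
      have : dist (w + t • e) w ≤ δ' / 4 := by rwa [dist_eq_norm, add_sub_cancel_left]
      linarith [dist_triangle (w + t • e) w y, min_le_right (min r₁ r₂) (δ' / 2)]
    have hmono := (strictMono_segment (convex_ball y δ') hd ht hwδ hwt).1
    have e1 : domainOf φ w = domainOf φ (w + t • e) := hseg fun s hs => by
      rw [segment_eq_image'] at hs
      obtain ⟨θ, hθ, rfl⟩ := hs
      simp only [add_sub_cancel_left, smul_smul]
      exact (hgt.trans_le (hmono _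
        ⟨mul_nonneg hθ.1 ht.le, mul_le_of_le_one_left ht.le hθ.2⟩)).ne'
    have e2 : domainOf φ (y + t • e) = domainOf φ (w + t • e) := hseg fun s hs => by
      have hb : s ∈ ball (y + t • e) r := (convex_ball _ _).segment_subset (mem_ball_self hr)
        (by rw [mem_ball, dist_add_right]; exact hwr) hs
      exact (hr₁' (lt_of_lt_of_le (mem_ball.1 hb)
        ((min_le_left _ _).trans (min_le_left _ _)))).ne'
    rw [hN, domainOf, connectedComponentIn_eq hin]
    change w ∈ domainOf φ (y + t • e)
    rw [e2, ← e1]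
    exact mem_connectedComponentIn hw0

end Vale.Agent.P363.Top
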