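import Vale.Agent.P363.Top.CourantH1
import Vale.Agent.P363.Top.CourantLocal

/-!
P363: Courant's bound at the second level: at most two nodal domains, without unique continuation.
-/

noncomputable section

namespace Vale.Agent.P363.Top

open MeasureTheory Filter Set Metric
open scoped BigOperators Topology

variable {v φ φ₀ f g : Space → ℝ} {F G : Fin 3 → Space → ℝ} {e₀ μ : ℝ}

/-- The strong form of the form equation. -/
lemma IsFormEigen.weakPoisson (he : IsFormEigen v μ f F) (hv : SecondLevel v φ₀ e₀ μ)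
    (hc : Continuous f) : WeakPoisson univ f fun z => 2 * (v z - μ) * f z := by
  have hloc : LocallyIntegrableOn (fun z => 2 * (v z - μ) * f z) univ := by
    have h := (((hv.loc.locallyIntegrableOn univ).sub (locallyIntegrableOn_const μ)).smul
      (2 : ℝ)).mul_continuousOn hc.continuousOn isOpen_univ.isLocallyClosed
    exact h
  refine .of_grad he.h1.grad hloc fun η hη => ?_
  have hi1 : Integrable fun x => ∑ a, F a x * deriv3 a η x :=
    integrable_finsetSum _ fun a _ => (hη.deriv a).integrable_mul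
      (((he.h1.memLp_grad a).locallyIntegrable one_le_two).locallyIntegrableOn _)
  have hi2 : Integrable fun x => 2 * (v x - μ) * f x * η x := hη.integrable_mul hloc
  have key : ∫ x, ((1 / 2 : ℝ) * ∑ a, F a x * deriv3 a η x +
      (1 / 2 : ℝ) * (2 * (v x - μ) * f x * η x)) = 0 := by
    rw [← he.eqn η _ (IsH1.of_bump hη)]
    unfold bil
    congr 1
    funext x
    ring
  rw [integral_add (hi1.const_mul _) (hi2.const_mul _), integral_const_mul, integral_const_mul]
    at key
  linarith

/-- A state at the level `μ` orthogonal to the ground state is an eigenfunction. -/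
lemma SecondLevel.isFormEigen_of_eq (hv : SecondLevel v φ₀ e₀ μ) (hf : IsH1 f F)
    (h0 : ∫ x, f x * φ₀ x = 0) (hq : bil v μ f F f F = 0) : IsFormEigen v μ f F := by
  obtain ⟨F₀, hg⟩ := hv.ground
  refine ⟨hf, fun g G hgG => ?_⟩
  have hperp : ∀ g G, IsH1 g G → ∫ x, g x * φ₀ x = 0 → bil v μ f F g G = 0 := by
    intro g G hgG h1
    set B := bil v μ f F g G with hB
    set Q := bil v μ g G g G
    have key : ∀ t : ℝ, 0 ≤ 2 * t * B + t ^ 2 * Q := fun t => by
      have hs := hf.add (hgG.const_mul t)
      have ho : ∫ x, (f x + t * g x) * φ₀ x = 0 := by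
        simp only [add_mul, mul_assoc]
        have hi1 : Integrable fun x => f x * φ₀ x := hf.memLp.integrable_mul hg.h1.memLp
        have hi2 : Integrable fun x => g x * φ₀ x := hgG.memLp.integrable_mul hg.h1.memLp
        rw [integral_add hi1 (hi2.const_mul t), integral_const_mul, h0, h1]
        ring
      have h := hv.le _ _ hs ho
      rw [bil_add_mul hv μ t hs hf hgG, bil_comm v μ _ _ f, bil_comm v μ _ _ g,
        bil_add_mul hv μ t hf hf hgG, bil_add_mul hv μ t hgG hf hgG, bil_comm v μ g G f F, hq,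
        ← hB] at h
      linarith [h]
    have hQ : 0 ≤ Q := hv.le _ _ hgG h1
    have h := key (-B / (Q + 1))
    have hQ1 : 0 < Q + 1 := by linarith
    rw [show 2 * (-B / (Q + 1)) * B + (-B / (Q + 1)) ^ 2 * Q = -(B ^ 2 * (Q + 2)) / (Q + 1) ^ 2 by
      field_simp; ring] at h
    rw [le_div_iff₀ (by positivity), zero_mul] at h
    have : B ^ 2 ≤ 0 := by nlinarith [sq_nonneg B]
    exact pow_eq_zero_iff two_ne_zero |>.1 (le_antisymm this (sq_nonneg _))
  have hφ0 : bil v μ f F φ₀ F₀ = 0 := by
    rw [bil_shift hv μ e₀ hf hg.h1, bil_comm, hg.eqn _ _ hf, h0]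
    ring
  have hpos : 0 < ∫ x, φ₀ x * φ₀ x := by
    have hsupp : Function.support (fun x => φ₀ x * φ₀ x) =ᵐ[volume] (univ : Set Space) := by
      filter_upwards [hv.pos] with x hx
      exact eq_iff_iff.2 ⟨fun _ => trivial, fun _ => (mul_pos hx hx).ne'⟩
    rw [integral_pos_iff_support_of_nonneg (fun x => mul_self_nonneg _)
      (hg.h1.memLp.integrable_mul hg.h1.memLp), measure_congr hsupp]
    exact isOpen_univ.measure_pos volume univ_nonempty
  set c := (∫ x, g x * φ₀ x) / ∫ x, φ₀ x * φ₀ x with hc
  have ho : ∫ x, (g x + -c * φ₀ x) * φ₀ x = 0 := by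
    simp only [add_mul, mul_assoc]
    have hi1 : Integrable fun x => g x * φ₀ x := hgG.memLp.integrable_mul hg.h1.memLp
    have hi2 : Integrable fun x => φ₀ x * φ₀ x := hg.h1.memLp.integrable_mul hg.h1.memLp
    rw [integral_add hi1 (hi2.const_mul (-c)), integral_const_mul, hc, neg_mul,
      div_mul_cancel₀ _ hpos.ne', add_neg_cancel]
  have := hperp _ _ (hgG.add (hg.h1.const_mul (-c))) ho
  rw [bil_add_mul hv μ _ hf hgG hg.h1, hφ0] at this
  simpa using this

/-- The restriction of an eigenfunction to a nodal domain. -/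
lemma SecondState.piece {P : Finset Space} (h : SecondState P v φ₀ e₀ μ φ F) (x : Space) :
    IsH1 ((domainOf φ x).indicator φ) fun a => (domainOf φ x).indicator (F a) :=
  isH1_piece h.eigen.h1 h.cont h.c1 (isOpen_domainOf h.cont) (fun _ => domainOf_ne_zero)
    fun _ hy h0 => domainOf_closed h.cont hy h0

/-- The overlap of the ground state with a nodal domain does not vanish. -/
lemma SecondState.overlap_ne_zero {P : Finset Space} (h : SecondState P v φ₀ e₀ μ φ F) {x : Space}
    (hx : φ x ≠ 0) : ∫ y, (domainOf φ x).indicator φ y * φ₀ y ≠ 0 := by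
  obtain ⟨F₀, hg⟩ := h.level.ground
  set N := domainOf φ x
  obtain ⟨σ, -, hσN⟩ : ∃ σ : ℝ, σ ≠ 0 ∧ ∀ y ∈ N, 0 < σ * φ y := by
    rcases lt_or_gt_of_ne hx with hlt | hgt
    · refine ⟨-1, by norm_num, fun y hy => ?_⟩
      have hN : N = domainOf (fun z => -φ z) x := by simp [N, domainOf]
      rw [neg_one_mul]
      exact pos_domainOf h.cont.neg (neg_pos.2 hlt) (hN ▸ hy)
    · exact ⟨1, one_ne_zero, fun y hy => by rw [one_mul]; exact pos_domainOf h.cont hgt hy⟩
  intro h0
  have hi : Integrable fun y => σ * (N.indicator φ y * φ₀ y) :=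
    ((h.piece x).memLp.integrable_mul hg.h1.memLp).const_mul σ
  have hnn : 0 ≤ᵐ[volume] fun y => σ * (N.indicator φ y * φ₀ y) := by
    filter_upwards [h.level.pos] with y hy
    by_cases hyN : y ∈ N
    · rw [indicator_of_mem hyN, ← mul_assoc]
      exact (mul_pos (hσN y hyN) hy).le
    · simp [indicator_of_notMem hyN]
  have hz := (integral_eq_zero_iff_of_nonneg_ae hnn hi).1 (by rw [integral_const_mul, h0, mul_zero])
  have hNm : volume N = 0 := measure_eq_zero_iff_ae_notMem.2 <| by
    filter_upwards [hz, h.level.pos] with y hy hy0 hyN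
    rw [indicator_of_mem hyN, ← mul_assoc] at hy
    exact (mul_pos (hσN y hyN) hy0).ne' hy
  exact (isOpen_domainOf h.cont).measure_ne_zero volume ⟨x, mem_connectedComponentIn hx⟩ hNm

/-- The combination of two nodal pieces orthogonal to the ground state is an eigenfunction. -/
lemma SecondState.exists_pair {P : Finset Space} (h : SecondState P v φ₀ e₀ μ φ F) {x z : Space}
    (hx : φ x ≠ 0) (hz : φ z ≠ 0) (hdis : Disjoint (domainOf φ x) (domainOf φ z)) :
    ∃ a b : ℝ, a ≠ 0 ∧ b ≠ 0 ∧ ∃ G, IsFormEigen v μ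
      (fun y => a * (domainOf φ x).indicator φ y + b * (domainOf φ z).indicator φ y) G := by
  obtain ⟨F₀, hg⟩ := h.level.ground
  have hi : ∀ w, Integrable fun y => (domainOf φ w).indicator φ y * φ₀ y := fun w =>
    (h.piece w).memLp.integrable_mul hg.h1.memLp
  refine ⟨∫ y, (domainOf φ z).indicator φ y * φ₀ y,
    -∫ y, (domainOf φ x).indicator φ y * φ₀ y, h.overlap_ne_zero hz,
    neg_ne_zero.2 (h.overlap_ne_zero hx), ?_⟩
  set a := ∫ y, (domainOf φ z).indicator φ y * φ₀ y with ha
  set c := ∫ y, (domainOf φ x).indicator φ y * φ₀ y with hcdef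
  have hs := ((h.piece x).const_mul a).add ((h.piece z).const_mul (-c))
  refine ⟨_, h.level.isFormEigen_of_eq hs ?_ ?_⟩
  · simp only [add_mul, mul_assoc]
    rw [integral_add ((hi x).const_mul a) ((hi z).const_mul (-c)), integral_const_mul,
      integral_const_mul, ← ha, ← hcdef]
    ring
  · refine Eq.trans ?_ (h.eigen.eqn _ _
      (((h.piece x).const_mul (a ^ 2)).add ((h.piece z).const_mul ((-c) ^ 2))))
    unfold bil
    congr 1
    funext y
    by_cases h1 : y ∈ domainOf φ x
    · have h2 := Set.disjoint_left.1 hdis h1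
      simp only [indicator_of_mem h1, indicator_of_notMem h2, Fin.sum_univ_three]
      ring
    · by_cases h2 : y ∈ domainOf φ z
      · simp only [indicator_of_mem h2, indicator_of_notMem h1, Fin.sum_univ_three]
        ring
      · simp [indicator_of_notMem h1, indicator_of_notMem h2]

lemma SecondState.neg {P : Finset Space} (h : SecondState P v φ₀ e₀ μ φ F) :
    SecondState P v φ₀ e₀ μ (fun y => -φ y) fun a y => -F a y := by
  refine ⟨h.level, h.upper, ⟨by simpa using h.eigen.h1.const_mul (-1), fun g G hg => ?_⟩,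
    h.cont.neg, h.c1.neg⟩
  rw [← neg_zero, ← h.eigen.eqn g G hg]
  unfold bil
  rw [← integral_neg]
  congr 1
  funext x
  simp only [Fin.sum_univ_three]
  ring

/-- The positive case: a positive domain cannot coexist with two further domains. -/
theorem SecondState.no_three (hH : HopfStmt) (hP : PositiveStmt) {P : Finset Space}
    (h : SecondState P v φ₀ e₀ μ φ F) {x₀ x₁ x₂ : Space} (h0 : 0 < φ x₀) (h1 : φ x₁ ≠ 0)
    (h2 : φ x₂ ≠ 0) (h01 : ¬ JoinedIn {y | φ y ≠ 0} x₀ x₁)
    (h02 : ¬ JoinedIn {y | φ y ≠ 0} x₀ x₂) (h12 : ¬ JoinedIn {y | φ y ≠ 0} x₁ x₂) : False := by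
  obtain ⟨y, r, C, q, hr, hy0, hycl, hvC, -, hcov⟩ := exists_adjacent hH h.cont h.c1 h.upper
    (h.eigen.weakPoisson h.level h.cont) h0 h1 fun hm => h01 (joinedIn_of_mem_domainOf h.cont hm)
  obtain ⟨z, hz, h0z, hqz⟩ : ∃ z, φ z ≠ 0 ∧ ¬ JoinedIn {w | φ w ≠ 0} x₀ z ∧
      Disjoint (domainOf φ q) (domainOf φ z) := by
    by_cases hd : Disjoint (domainOf φ q) (domainOf φ x₁)
    · exact ⟨x₁, h1, h01, hd⟩
    · obtain ⟨w, hwq, hwx⟩ := Set.not_disjoint_iff.1 hd
      refine ⟨x₂, h2, h02, ?_⟩
      rw [show domainOf φ q = domainOf φ x₁ by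
        rw [domainOf, domainOf, connectedComponentIn_eq hwq, connectedComponentIn_eq hwx]]
      exact disjoint_domainOf h12 h.cont
  obtain ⟨a, b, ha, hb, G, hψ⟩ :=
    h.exists_pair h0.ne' hz (disjoint_domainOf h0z h.cont)
  have key : ∀ w, ContinuousOn ((domainOf φ w).indicator φ) univ := fun w => by
    refine (continuous_indicator (fun u hu => ?_) h.cont.continuousOn).continuousOn
    by_contra hne
    rw [(isOpen_domainOf h.cont).frontier_eq] at hu
    exact hu.2 (domainOf_closed h.cont hu.1 hne)
  have hcont : Continuous fun u =>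
      a * (domainOf φ x₀).indicator φ u + b * (domainOf φ z).indicator φ u := by
    have h1 := continuousOn_univ.1 (key x₀)
    have h2 := continuousOn_univ.1 (key z)
    fun_prop
  set ψ := fun u => a * (domainOf φ x₀).indicator φ u + b * (domainOf φ z).indicator φ u with hψdef
  -- on the ball the combination is a multiple of one nonnegative piece
  have hloc : ∀ u ∈ ball y r, a⁻¹ * ψ u = (domainOf φ x₀).indicator φ u := fun u hu => by
    have hz0 : (domainOf φ z).indicator φ u = 0 := by
      refine indicator_of_notMem (fun hm => ?_) _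
      rcases hcov u hu (domainOf_ne_zero hm) with h' | h'
      · exact Set.disjoint_left.1 (disjoint_domainOf h0z h.cont) h' hm
      · exact Set.disjoint_left.1 hqz h' hm
    rw [hψdef]
    simp only [hz0, mul_zero, add_zero, ← mul_assoc, inv_mul_cancel₀ ha, one_mul]
  have hnn : ∀ u ∈ ball y r, 0 ≤ a⁻¹ * ψ u := fun u hu => by
    rw [hloc u hu]
    exact indicator_nonneg (fun w hw => (pos_domainOf h.cont h0 hw).le) u
  have hsup : WeakSubPoisson (ball y r) (-fun u => a⁻¹ * ψ u)
      (-fun u => a⁻¹ * (2 * (v u - μ) * ψ u)) := by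
    have h' := ((((hψ.weakPoisson h.level hcont).mono (subset_univ (ball y r))).const_mul
      a⁻¹).const_mul (-1)).toSub
    simp only [neg_one_mul] at h'
    exact h'
  rcases hP (ball y r) (fun u => a⁻¹ * ψ u) _ (2 * (C - μ)) isOpen_ball
    (convex_ball y r).isPreconnected (hcont.const_smul a⁻¹).continuousOn hnn hsup
    (by
      filter_upwards [hvC] with u hu hm
      rw [mul_left_comm a⁻¹]
      exact mul_le_mul_of_nonneg_right (by linarith [hu hm]) (hnn u hm)) with hzero | hpos
  · obtain ⟨u, hu, huN⟩ := mem_closure_iff.1 hycl (ball y r) isOpen_ball (mem_ball_self hr)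
    have := hzero u hu
    rw [hloc u hu, indicator_of_mem huN] at this
    exact domainOf_ne_zero huN this
  · have := hpos y (mem_ball_self hr)
    rw [hloc y (mem_ball_self hr), indicator_of_notMem fun hm => domainOf_ne_zero hm hy0] at this
    exact lt_irrefl 0 this

/-- Courant's bound: no three points in three different nodal domains. -/
theorem courant (hH : HopfStmt) (hP : PositiveStmt) : CourantStmt := by
  intro P v φ₀ e₀ μ φ F h x hx hpair
  rcases lt_or_gt_of_ne (hx 0) with hlt | hgt
  · have e : {y : Space | -φ y ≠ 0} = {y | φ y ≠ 0} := by simp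
    refine h.neg.no_three hH hP (x₀ := x 0) (x₁ := x 1) (x₂ := x 2) (neg_pos.2 hlt)
      (neg_ne_zero.2 (hx 1)) (neg_ne_zero.2 (hx 2)) ?_ ?_ ?_ <;> rw [e]
    · exact hpair (by decide)
    · exact hpair (by decide)
    · exact hpair (by decide)
  · exact h.no_three hH hP hgt (hx 1) (hx 2) (hpair (by decide)) (hpair (by decide))
      (hpair (by decide))

end Vale.Agent.P363.Top
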