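import Vale.Agent.P363.Top.CourantSpec
import Vale.Agent.P363.Tool.Weak.Basic

/-!
P363: algebra of the form on `H¹(ℝ³)` and the restriction of a continuous function to a union of
its nodal domains.
-/

noncomputable section

namespace Vale.Agent.P363.Top

open MeasureTheory Filter Set
open scoped BigOperators Topology ContDiff

variable {v φ f g h : Space → ℝ} {F G K : Fin 3 → Space → ℝ} {e c : ℝ}

namespace IsH1

lemma add (hf : IsH1 f F) (hg : IsH1 g G) :
    IsH1 (fun x => f x + g x) fun a x => F a x + G a x :=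
  ⟨hf.memLp.add hg.memLp, fun a => (hf.memLp_grad a).add (hg.memLp_grad a), hf.grad.add hg.grad⟩

lemma const_mul (hf : IsH1 f F) (c : ℝ) : IsH1 (fun x => c * f x) fun a x => c * F a x :=
  ⟨hf.memLp.const_mul c, fun a => (hf.memLp_grad a).const_mul c, hf.grad.const_mul c⟩

lemma of_bump {η : Space → ℝ} (hη : IsBump univ η) : IsH1 η fun a => deriv3 a η :=
  ⟨hη.continuous.memLp_of_hasCompactSupport hη.compact,
    fun a => (hη.deriv a).continuous.memLp_of_hasCompactSupport (hη.deriv a).compact,
    .of_contDiffOn isOpen_univ (hη.smooth.contDiffOn.of_le (by simp))⟩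

end IsH1

lemma SecondLevel.integrable_vmul {φ₀ : Space → ℝ} {e₀ μ : ℝ} (hv : SecondLevel v φ₀ e₀ μ)
    (hf : IsH1 f F) (hg : IsH1 g G) : Integrable fun x => v x * (f x * g x) := by
  have h := (((hv.pot _ _ (hf.add hg)).sub (hv.pot _ _ hf)).sub (hv.pot _ _ hg)).const_mul (1 / 2)
  refine h.congr (.of_forall fun x => ?_)
  simp only [Pi.sub_apply]
  ring

lemma SecondLevel.integrable_bil {φ₀ : Space → ℝ} {e₀ μ : ℝ} (hv : SecondLevel v φ₀ e₀ μ) (e : ℝ)
    (hf : IsH1 f F) (hg : IsH1 g G) :
    Integrable fun x => (1 / 2 : ℝ) * ∑ a, F a x * G a x + (v x - e) * f x * g x := by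
  refine ((integrable_finsetSum _ fun a _ =>
    (hf.memLp_grad a).integrable_mul (hg.memLp_grad a)).const_mul _).add ?_
  refine ((hv.integrable_vmul hf hg).sub ((hf.memLp.integrable_mul hg.memLp).const_mul e)).congr
    (.of_forall fun x => ?_)
  simp only [Pi.sub_apply, Pi.mul_apply]
  ring

lemma bil_comm (v : Space → ℝ) (e : ℝ) (f : Space → ℝ) (F : Fin 3 → Space → ℝ) (g : Space → ℝ)
    (G : Fin 3 → Space → ℝ) : bil v e f F g G = bil v e g G f F := by
  unfold bil
  congr 1
  funext x
  simp only [mul_comm (F _ x)]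
  ring

lemma bil_add_mul {φ₀ : Space → ℝ} {e₀ μ : ℝ} (hv : SecondLevel v φ₀ e₀ μ) (e c : ℝ)
    (hf : IsH1 f F) (hg : IsH1 g G) (hh : IsH1 h K) :
    bil v e f F (fun x => g x + c * h x) (fun a x => G a x + c * K a x) =
      bil v e f F g G + c * bil v e f F h K := by
  unfold bil
  rw [← integral_const_mul, ← integral_add (hv.integrable_bil e hf hg)
    ((hv.integrable_bil e hf hh).const_mul c)]
  congr 1
  funext x
  simp only [Fin.sum_univ_three]
  ring

lemma bil_shift {φ₀ : Space → ℝ} {e₀ μ : ℝ} (hv : SecondLevel v φ₀ e₀ μ) (e e' : ℝ)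
    (hf : IsH1 f F) (hg : IsH1 g G) :
    bil v e f F g G = bil v e' f F g G + (e' - e) * ∫ x, f x * g x := by
  unfold bil
  have hi : Integrable fun x => (e' - e) * (f x * g x) :=
    (hf.memLp.integrable_mul hg.memLp).const_mul _
  rw [← integral_const_mul, ← integral_add (hv.integrable_bil e' hf hg) hi]
  congr 1
  funext x
  ring

/-! ### The cut-off of small values -/

/-- Vanishes on `[-1, 1]` and is the identity outside `[-2, 2]`. -/
def cut (t : ℝ) : ℝ := t * Real.smoothTransition ((t ^ 2 - 1) / 3)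

lemma contDiff_cut : ContDiff ℝ 1 cut :=
  contDiff_id.mul (Real.smoothTransition.contDiff.comp (by fun_prop))

lemma abs_cut_le (t : ℝ) : |cut t| ≤ |t| := by
  rw [cut, abs_mul, abs_of_nonneg (Real.smoothTransition.nonneg _)]
  exact mul_le_of_le_one_right (abs_nonneg t) (Real.smoothTransition.le_one _)

lemma cut_of_small {t : ℝ} (ht : |t| < 1) : cut t = 0 ∧ deriv cut t = 0 := by
  have h0 : ∀ s : ℝ, |s| < 1 → cut s = 0 := fun s hs => by
    rw [cut, Real.smoothTransition.zero_of_nonpos, mul_zero]
    nlinarith [abs_lt.1 hs]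
  refine ⟨h0 t ht, ?_⟩
  have : cut =ᶠ[𝓝 t] fun _ => 0 := by
    filter_upwards [(isOpen_lt continuous_abs continuous_const).mem_nhds ht] with s hs using h0 s hs
  rw [this.deriv_eq, deriv_const]

lemma cut_of_large {t : ℝ} (ht : 2 < |t|) : cut t = t ∧ deriv cut t = 1 := by
  have h0 : ∀ s : ℝ, 2 < |s| → cut s = s := fun s hs => by
    rw [cut, Real.smoothTransition.one_of_one_le, mul_one]
    have : (2 : ℝ) ^ 2 ≤ |s| ^ 2 := pow_le_pow_left₀ (by norm_num) hs.le 2
    rw [sq_abs] at this
    linarith
  refine ⟨h0 t ht, ?_⟩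
  have : cut =ᶠ[𝓝 t] id := by
    filter_upwards [(isOpen_lt continuous_const continuous_abs).mem_nhds ht] with s hs using h0 s hs
  rw [this.deriv_eq, deriv_id]

lemma exists_cut_deriv_le : ∃ M : ℝ, ∀ t, |deriv cut t| ≤ M := by
  obtain ⟨M, hM⟩ := (isCompact_Icc (a := (-2 : ℝ)) (b := 2)).exists_bound_of_continuousOn
    (contDiff_cut.continuous_deriv le_rfl).continuousOn
  refine ⟨max M 1, fun t => ?_⟩
  by_cases ht : |t| ≤ 2
  · exact (hM t (abs_le.1 ht)).trans (le_max_left _ _)
  · rw [(cut_of_large (not_le.1 ht)).2, abs_one]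
    exact le_max_right _ _

/-! ### Restriction to nodal domains -/

/-- Cutting off the values below `ε` on `A` gives a function with a weak gradient. -/
lemma hasWeakGrad_cut {P : Finset Space} {A : Set Space} {ε : ℝ} (hφ : IsH1 φ F)
    (hc : Continuous φ) (h1 : ContDiffOn ℝ 1 φ (↑P : Set Space)ᶜ) (hA : IsOpen A)
    (hcl : ∀ x ∈ closure A, φ x ≠ 0 → x ∈ A) (hε : 0 < ε)
    (hP : ∀ p ∈ P, φ p ≠ 0 → 2 * ε < |φ p|) :
    HasWeakGrad univ (A.indicator fun x => ε * cut (φ x / ε))
      fun a => A.indicator fun x => deriv cut (φ x / ε) * F a x := by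
  refine .of_local fun x _ => ?_
  have hdiv : Continuous fun y => φ y / ε := by fun_prop
  by_cases hx : x ∈ A ∧ φ x ≠ 0
  · by_cases hxP : x ∈ P
    · refine ⟨A ∩ {y | 2 < |φ y / ε|}, hA.inter (isOpen_lt continuous_const hdiv.abs),
        ⟨hx.1, ?_⟩, (hφ.grad.mono (subset_univ _)).congr_ae
          (hA.inter (isOpen_lt continuous_const hdiv.abs)) ?_ fun a => ?_⟩
      · show 2 < |φ x / ε|
        rw [abs_div, abs_of_pos hε, lt_div_iff₀ hε]
        exact hP x hxP hx.2
      all_goals
        filter_upwards [ae_restrict_mem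
          (hA.inter (isOpen_lt continuous_const hdiv.abs)).measurableSet] with y hy
        rw [indicator_of_mem hy.1]
      · rw [(cut_of_large hy.2).1]; field_simp
      · rw [(cut_of_large hy.2).2, one_mul]
    · have hV : IsOpen (A ∩ (↑P : Set Space)ᶜ) := hA.inter P.finite_toSet.isClosed.isOpen_compl
      have h1V := h1.mono (inter_subset_right : A ∩ (↑P : Set Space)ᶜ ⊆ (↑P : Set Space)ᶜ)
      have hcomp : ContDiffOn ℝ 1 (fun y => ε * cut (φ y / ε)) (A ∩ (↑P : Set Space)ᶜ) :=
        contDiffOn_const.mul (contDiff_cut.comp_contDiffOn (h1V.div_const ε))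
      refine ⟨_, hV, ⟨hx.1, by simpa using hxP⟩, (HasWeakGrad.of_contDiffOn hV hcomp).congr_ae hV
        ?_ fun a => ?_⟩
      · filter_upwards [ae_restrict_mem hV.measurableSet] with y hy
        rw [indicator_of_mem hy.1]
      · filter_upwards [ae_restrict_mem hV.measurableSet, (HasWeakGrad.of_contDiffOn hV h1V).unique
          hV (hφ.grad.mono (subset_univ _)) a] with y hy hFy
        rw [indicator_of_mem hy.1, ← hFy]
        have hd : DifferentiableAt ℝ φ y :=
          (h1V.contDiffAt (hV.mem_nhds hy)).differentiableAt one_ne_zero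
        have hc' := (((contDiff_cut.differentiable one_ne_zero (φ y / ε)).hasDerivAt.comp_hasFDerivAt
          y (hd.hasFDerivAt.mul_const ε⁻¹)).const_mul ε)
        show fderiv ℝ (fun z => ε * cut (φ z / ε)) y (unit3 a) = _
        rw [show (fun z => ε * cut (φ z / ε)) = fun z => ε * (cut ∘ fun w => φ w * ε⁻¹) z by
          funext z; simp [div_eq_mul_inv], hc'.fderiv]
        simp [deriv3, div_eq_mul_inv]
        field_simp
  · obtain ⟨V, hV, hxV, hzero⟩ : ∃ V, IsOpen V ∧ x ∈ V ∧ ∀ y ∈ V, y ∉ A ∨ |φ y / ε| < 1 := by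
      by_cases h0 : φ x = 0
      · exact ⟨{y | |φ y / ε| < 1}, isOpen_lt hdiv.abs continuous_const, by simp [h0],
          fun y hy => Or.inr hy⟩
      · exact ⟨(closure A)ᶜ, isClosed_closure.isOpen_compl,
          fun hm => hx ⟨hcl x hm h0, h0⟩, fun y hy => Or.inl fun hm => hy (subset_closure hm)⟩
    refine ⟨V, hV, hxV, (HasWeakGrad.zero V).congr_ae hV ?_ fun a => ?_⟩
    all_goals
      filter_upwards [ae_restrict_mem hV.measurableSet] with y hy
      rcases hzero y hy with h | h
      · rw [indicator_of_notMem h]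
      · by_cases hm : y ∈ A
        · rw [indicator_of_mem hm]
          simp [(cut_of_small h).1, (cut_of_small h).2]
        · rw [indicator_of_notMem hm]

/-- A continuous `H¹` function times the indicator of a union of its nodal domains is in `H¹`. -/
lemma isH1_piece {P : Finset Space} {A : Set Space} (hφ : IsH1 φ F) (hc : Continuous φ)
    (h1 : ContDiffOn ℝ 1 φ (↑P : Set Space)ᶜ) (hA : IsOpen A)
    (hA0 : ∀ x ∈ A, φ x ≠ 0) (hcl : ∀ x ∈ closure A, φ x ≠ 0 → x ∈ A) :
    IsH1 (A.indicator φ) fun a => A.indicator (F a) := by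
  have m1 := hφ.memLp.indicator (s := A) hA.measurableSet
  have m2 := fun a => (hφ.memLp_grad a).indicator (s := A) hA.measurableSet
  refine ⟨m1, m2, (m1.locallyIntegrable one_le_two).locallyIntegrableOn _,
    fun a => ((m2 a).locallyIntegrable one_le_two).locallyIntegrableOn _, fun η hη a => ?_⟩
  let ε : ℕ → ℝ := fun n => 1 / ((n : ℝ) + 1)
  have hεpos : ∀ n, 0 < ε n := fun n => by positivity
  have hε0 : Tendsto ε atTop (𝓝 0) := tendsto_one_div_add_atTop_nhds_zero_nat
  have hev : ∀ᶠ n in atTop, ∀ p ∈ P, φ p ≠ 0 → 2 * ε n < |φ p| := by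
    refine (eventually_all_finset P).2 fun p _ => ?_
    by_cases hp : φ p = 0
    · exact .of_forall fun n h => absurd hp h
    · filter_upwards [(hε0.const_mul 2).eventually_lt_const
        (by rw [mul_zero]; exact abs_pos.2 hp)] with n hn _ using hn
  have large : ∀ t : ℝ, t ≠ 0 → ∀ᶠ n in atTop, 2 < |t / ε n| := fun t ht => by
    filter_upwards [(hε0.const_mul 2).eventually_lt_const
      (by rw [mul_zero]; exact abs_pos.2 ht)] with n hn
    rw [abs_div, abs_of_pos (hεpos n), lt_div_iff₀ (hεpos n)]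
    exact hn
  obtain ⟨M, hM⟩ := exists_cut_deriv_le
  have hA' := hA.measurableSet
  have hl : Tendsto (fun n => ∫ x, A.indicator (fun y => ε n * cut (φ y / ε n)) x * deriv3 a η x)
      atTop (𝓝 (∫ x, A.indicator φ x * deriv3 a η x)) := by
    refine tendsto_integral_of_dominated_convergence (fun x => |φ x * deriv3 a η x|)
      (fun n => ((AEStronglyMeasurable.indicator ?_ hA')).mul
        (hη.deriv a).continuous.aestronglyMeasurable)
      (hη.integrable_mul_deriv hφ.grad.1 a).abs (fun n => .of_forall fun x => ?_)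
      (.of_forall fun x => ?_)
    · have := contDiff_cut.continuous
      exact Continuous.aestronglyMeasurable (by fun_prop)
    · by_cases hx : x ∈ A
      · rw [indicator_of_mem hx, Real.norm_eq_abs, abs_mul, abs_mul (φ x), abs_mul]
        refine mul_le_mul_of_nonneg_right ?_ (abs_nonneg _)
        calc |ε n| * |cut (φ x / ε n)| ≤ |ε n| * |φ x / ε n| :=
              mul_le_mul_of_nonneg_left (abs_cut_le _) (abs_nonneg _)
          _ = |φ x| := by rw [← abs_mul, mul_div_cancel₀ _ (hεpos n).ne']
      · simp only [indicator_of_notMem hx, zero_mul, norm_zero]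
        exact abs_nonneg _
    · refine Tendsto.mul_const _ ?_
      by_cases hx : x ∈ A
      · simp only [indicator_of_mem hx]
        by_cases h0 : φ x = 0
        · simp [h0, cut]
        · refine (tendsto_congr' ?_).2 tendsto_const_nhds
          filter_upwards [large _ h0] with n hn
          rw [(cut_of_large hn).1, mul_div_cancel₀ _ (hεpos n).ne']
      · simp [indicator_of_notMem hx]
  have hr : Tendsto
      (fun n => ∫ x, A.indicator (fun y => deriv cut (φ y / ε n) * F a y) x * η x)
      atTop (𝓝 (∫ x, A.indicator (F a) x * η x)) := by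
    refine tendsto_integral_of_dominated_convergence (fun x => M * |F a x * η x|)
      (fun n => ((AEStronglyMeasurable.indicator ?_ hA')).mul hη.continuous.aestronglyMeasurable)
      ((hη.integrable_mul (hφ.grad.2.1 a)).abs.const_mul M) (fun n => .of_forall fun x => ?_)
      (.of_forall fun x => ?_)
    · have := contDiff_cut.continuous_deriv le_rfl
      exact (Continuous.aestronglyMeasurable (by fun_prop)).mul (hφ.memLp_grad a).1
    · by_cases hx : x ∈ A
      · rw [indicator_of_mem hx, Real.norm_eq_abs, mul_assoc, abs_mul]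
        exact mul_le_mul_of_nonneg_right (hM _) (abs_nonneg _)
      · simp only [indicator_of_notMem hx, zero_mul, norm_zero]
        exact mul_nonneg ((abs_nonneg _).trans (hM 0)) (abs_nonneg _)
    · refine Tendsto.mul_const _ ?_
      by_cases hx : x ∈ A
      · simp only [indicator_of_mem hx]
        refine (tendsto_congr' ?_).2 tendsto_const_nhds
        filter_upwards [large _ (hA0 x hx)] with n hn
        rw [(cut_of_large hn).2, one_mul]
      · simp [indicator_of_notMem hx]
  have h2 : Tendsto (fun n => ∫ x, A.indicator (fun y => ε n * cut (φ y / ε n)) x * deriv3 a η x)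
      atTop (𝓝 (-∫ x, A.indicator (F a) x * η x)) := by
    refine hr.neg.congr' ?_
    filter_upwards [hev] with n hn
    exact ((hasWeakGrad_cut hφ hc h1 hA hcl (hεpos n) hn).2.2 η hη a).symm
  exact tendsto_nhds_unique hl h2

end Vale.Agent.P363.Top
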